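import Mathlib

/-! Computable arithmetic on the rationals, for the instance `Primcodable ℚ`. -/

open Encodable Denumerable

namespace Crest.Agent.CompRat

/-- The code of a rational in Mathlib's `Encodable ℚ`. -/
def eOld (q : ℚ) : ℕ := @Encodable.encode ℚ (Rat.instEncodable) q
/-- The code of a rational in `Primcodable ℚ`. -/
def eNew (q : ℚ) : ℕ := @Encodable.encode ℚ (Primcodable.toEncodable) q

theorem eOld_eq (q : ℚ) : eOld q = Nat.pair (Encodable.encode q.num) q.den := rfl

open Classical in
theorem eNew_eq (q : ℚ) : eNew q =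
    (List.range (eOld q)).countP (fun n => decide (n ∈ Set.range eOld)) := by
  have : eNew q = 
    @List.countP ℕ (fun n => @decide (n ∈ Set.range eOld)
      (@Encodable.decidableRangeEncode ℚ Rat.instEncodable n)) (List.range (eOld q)) := rfl
  rw [this]
  congr 1
  funext n
  congr

theorem encode_int_ofNat (n : ℕ) : Encodable.encode (Int.ofNat n) = 2 * n := rfl
theorem encode_int_negSucc (n : ℕ) : Encodable.encode (Int.negSucc n) = 2 * n + 1 := rfl

/-- the predicate defining the codes of rationals -/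
def isCode (n : ℕ) : Prop := 0 < n.unpair.2 ∧ Nat.gcd ((n.unpair.1 + 1) / 2) n.unpair.2 = 1

instance : DecidablePred isCode := fun n => by unfold isCode; infer_instance

theorem mem_range_eOld (n : ℕ) : n ∈ Set.range eOld ↔ isCode n := by
  constructor
  · rintro ⟨q, rfl⟩
    rw [eOld_eq, isCode, Nat.unpair_pair]
    refine ⟨q.pos, ?_⟩
    have hq := q.reduced
    cases h : q.num with
    | ofNat k =>
      rw [h] at hq
      rw [encode_int_ofNat]
      have : (2 * k + 1) / 2 = k := by omega
      simp only [this]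
      exact hq
    | negSucc k =>
      rw [h] at hq
      rw [encode_int_negSucc]
      have : (2 * k + 1 + 1) / 2 = k + 1 := by omega
      simp only [this]
      exact hq
  · rintro ⟨h1, h2⟩
    obtain ⟨z, hz⟩ : ∃ z : ℤ, Encodable.encode z = n.unpair.1 := by
      rcases Nat.even_or_odd' n.unpair.1 with ⟨k, hk | hk⟩
      · exact ⟨Int.ofNat k, by rw [encode_int_ofNat, hk]⟩
      · exact ⟨Int.negSucc k, by rw [encode_int_negSucc, hk]⟩
    refine ⟨⟨z, n.unpair.2, h1.ne', ?_⟩, ?_⟩
    · rw [← hz] at h2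
      cases z with
      | ofNat k =>
        rw [encode_int_ofNat] at h2
        have : (2 * k + 1) / 2 = k := by omega
        rw [this] at h2
        exact h2
      | negSucc k =>
        rw [encode_int_negSucc] at h2
        have : (2 * k + 1 + 1) / 2 = k + 1 := by omega
        rw [this] at h2
        exact h2
    · rw [eOld_eq]
      simp only [hz, Nat.pair_unpair]

theorem eNew_eq' (q : ℚ) : eNew q = (List.range (eOld q)).countP (fun n => decide (isCode n)) := by
  rw [eNew_eq]
  congr 1
  funext n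
  simp only [mem_range_eOld]

theorem primrec_gcd : Primrec₂ Nat.gcd := by
  have h : Primrec₂ (fun a b : ℕ => Nat.findGreatest (fun g => a % g = 0 ∧ b % g = 0) (a + b)) := by
    refine Primrec.nat_findGreatest (α := ℕ × ℕ) (f := fun p => p.1 + p.2)
      (p := fun p g => p.1 % g = 0 ∧ p.2 % g = 0) ?_ ?_
    · exact Primrec.nat_add.comp Primrec.fst Primrec.snd
    · have e1 : Primrec (fun x : (ℕ × ℕ) × ℕ => x.1.1 % x.2) :=
        Primrec.nat_mod.comp (Primrec.fst.comp Primrec.fst) Primrec.snd
      have e2 : Primrec (fun x : (ℕ × ℕ) × ℕ => x.1.2 % x.2) :=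
        Primrec.nat_mod.comp (Primrec.snd.comp Primrec.fst) Primrec.snd
      have e3 : PrimrecPred (fun x : (ℕ × ℕ) × ℕ => x.1.1 % x.2 = 0 ∧ x.1.2 % x.2 = 0) :=
        PrimrecPred.and (Primrec.eq.comp e1 (Primrec.const 0)) (Primrec.eq.comp e2 (Primrec.const 0))
      exact e3.primrecRel
  refine h.of_eq ?_
  intro a b
  rcases Nat.eq_zero_or_pos (a + b) with h0 | h0
  · have ha : a = 0 := by omega
    have hb : b = 0 := by omega
    subst ha hb
    simp
  · symm
    rw [eq_comm, Nat.findGreatest_eq_iff]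
    refine ⟨?_, ?_, ?_⟩
    · rcases Nat.eq_zero_or_pos a with ha | ha
      · have := Nat.gcd_le_right a (show 0 < b by omega); omega
      · have := Nat.gcd_le_left b ha; omega
    · intro _
      exact ⟨Nat.mod_eq_zero_of_dvd (Nat.gcd_dvd_left a b), Nat.mod_eq_zero_of_dvd (Nat.gcd_dvd_right a b)⟩
    · rintro n hn _ ⟨h1, h2⟩
      have : n ∣ Nat.gcd a b := Nat.dvd_gcd (Nat.dvd_of_mod_eq_zero h1) (Nat.dvd_of_mod_eq_zero h2)
      have hpos : 0 < Nat.gcd a b := by
        rw [Nat.gcd_pos_iff]; omega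
      exact absurd (Nat.le_of_dvd hpos this) (by omega)

theorem primrec_isCode : PrimrecPred isCode := by
  refine PrimrecPred.and ?_ ?_
  · exact Primrec.nat_lt.comp (Primrec.const 0) (Primrec.snd.comp Primrec.unpair)
  · refine Primrec.eq.comp (primrec_gcd.comp ?_ (Primrec.snd.comp Primrec.unpair)) (Primrec.const 1)
    exact Primrec.nat_div.comp (Primrec.nat_add.comp (Primrec.fst.comp Primrec.unpair) (Primrec.const 1))
      (Primrec.const 2)

/-- rank function -/
theorem primrec_rank : Primrec (fun e : ℕ => (List.range e).countP (fun n => decide (isCode n))) := by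
  have h : Primrec (fun e : ℕ => ((List.range e).filter (fun n => decide (isCode n))).length) :=
    Primrec.list_length.comp ((Primrec.listFilter primrec_isCode).comp Primrec.list_range)
  refine h.of_eq ?_
  intro e
  rw [List.countP_eq_length_filter]

/-- `(p - m) / (d + 1)` -/
def mkQ (t : ℕ × ℕ × ℕ) : ℚ := ((t.1 : ℚ) - t.2.1) / ((t.2.2 : ℚ) + 1)

theorem mkQ_surj : Function.Surjective mkQ := by
  intro q
  refine ⟨(q.num.toNat, (-q.num).toNat, q.den - 1), ?_⟩
  have h1 : ((q.num.toNat : ℚ) - ((-q.num).toNat : ℚ)) = q.num := by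
    have : ((q.num.toNat : ℤ) - ((-q.num).toNat : ℤ)) = q.num := by omega
    exact_mod_cast this
  have h2 : (((q.den - 1 : ℕ) : ℚ) + 1) = q.den := by
    have := q.pos
    have : (q.den - 1) + 1 = q.den := by omega
    exact_mod_cast this
  simp only [mkQ, h1, h2]
  exact Rat.num_div_den q

/-- code (old) of mkQ -/
def codeQ (t : ℕ × ℕ × ℕ) : ℕ :=
  Nat.pair (if t.2.1 ≤ t.1 then 2 * ((t.1 - t.2.1) / Nat.gcd ((t.1 - t.2.1) + (t.2.1 - t.1)) (t.2.2 + 1))
    else 2 * ((t.2.1 - t.1) / Nat.gcd ((t.1 - t.2.1) + (t.2.1 - t.1)) (t.2.2 + 1)) - 1)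
    ((t.2.2 + 1) / Nat.gcd ((t.1 - t.2.1) + (t.2.1 - t.1)) (t.2.2 + 1))

theorem eOld_mkQ (t : ℕ × ℕ × ℕ) : eOld (mkQ t) = codeQ t := by
  obtain ⟨p, m, d⟩ := t
  rw [eOld_eq, codeQ]
  simp only [mkQ]
  have hq : ((p : ℚ) - m) / ((d : ℚ) + 1) = mkRat ((p : ℤ) - m) (d + 1) := by
    rw [Rat.mkRat_eq_div]; push_cast; rfl
  rw [hq, Rat.num_mkRat, Rat.den_mkRat]
  simp only [Nat.add_eq_zero_iff, one_ne_zero, and_false, if_false]
  have habs : ((p : ℤ) - m).natAbs = (p - m) + (m - p) := by omega
  rw [habs, Nat.gcd_comm (d + 1)]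
  set g := Nat.gcd ((p - m) + (m - p)) (d + 1) with hg
  have hgpos : 0 < g := Nat.gcd_pos_of_pos_right _ (by omega)
  congr 1
  split_ifs with h
  · have h1 : ((p : ℤ) - m) / (g : ℤ) = (((p - m) / g : ℕ) : ℤ) := by
      push_cast [Nat.cast_sub h]; rfl
    rw [h1]
    exact encode_int_ofNat _
  · have hdvd : g ∣ (m - p) := by
      have : g ∣ (p - m) + (m - p) := Nat.gcd_dvd_left _ _
      rwa [show (p - m) + (m - p) = m - p by omega] at this
    obtain ⟨c, hc⟩ := hdvd
    have hcpos : 0 < c := by
      rcases Nat.eq_zero_or_pos c with h0 | h0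
      · subst h0; omega
      · exact h0
    have h1 : ((p : ℤ) - m) / (g : ℤ) = Int.negSucc (c - 1) := by
      have h2 : ((p : ℤ) - m) = (g : ℤ) * (-(c : ℤ)) := by
        have : ((m : ℤ) - p) = (g : ℤ) * c := by
          have : ((m - p : ℕ) : ℤ) = (g : ℤ) * c := by exact_mod_cast hc
          rw [← this]; omega
        linarith
      rw [h2, Int.mul_ediv_cancel_left _ (by exact_mod_cast hgpos.ne')]
      rw [Int.negSucc_eq]; omega
    rw [h1, encode_int_negSucc, hc, Nat.mul_div_cancel_left _ hgpos]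
    omega

theorem primrec_codeQ : Primrec codeQ := by
  have hp : Primrec (fun t : ℕ × ℕ × ℕ => t.1) := Primrec.fst
  have hm : Primrec (fun t : ℕ × ℕ × ℕ => t.2.1) := Primrec.fst.comp Primrec.snd
  have hd : Primrec (fun t : ℕ × ℕ × ℕ => t.2.2 + 1) :=
    Primrec.succ.comp (Primrec.snd.comp Primrec.snd)
  have hpm : Primrec (fun t : ℕ × ℕ × ℕ => t.1 - t.2.1) := Primrec.nat_sub.comp hp hm
  have hmp : Primrec (fun t : ℕ × ℕ × ℕ => t.2.1 - t.1) := Primrec.nat_sub.comp hm hp
  have hg : Primrec (fun t : ℕ × ℕ × ℕ => Nat.gcd ((t.1 - t.2.1) + (t.2.1 - t.1)) (t.2.2 + 1)) :=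
    primrec_gcd.comp (Primrec.nat_add.comp hpm hmp) hd
  refine Primrec₂.natPair.comp (Primrec.ite (Primrec.nat_le.comp hm hp) ?_ ?_)
    (Primrec.nat_div.comp hd hg)
  · exact Primrec.nat_mul.comp (Primrec.const 2) (Primrec.nat_div.comp hpm hg)
  · exact Primrec.nat_sub.comp (Primrec.nat_mul.comp (Primrec.const 2) (Primrec.nat_div.comp hmp hg))
      (Primrec.const 1)

theorem primrec_mkQ : Primrec mkQ := by
  rw [← Primrec.encode_iff]
  refine (primrec_rank.comp primrec_codeQ).of_eq ?_
  intro t
  rw [← eOld_mkQ, ← eNew_eq']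
  rfl

theorem computable_mkQ : Computable mkQ := primrec_mkQ.to_comp

/-- A computable surjection has a computable section. -/
theorem exists_section {α β : Type*} [Primcodable α] [Primcodable β] (f : α → β)
    (hf : Computable f) (hs : Function.Surjective f) :
    ∃ g : β → α, Computable g ∧ ∀ b, f (g b) = b := by
  classical
  let F : β → ℕ → Option α := fun b n =>
    (Encodable.decode n : Option α).bind (fun a => if f a = b then some a else none)
  have hF : Computable₂ F := by
    refine Computable.option_bind (Computable.decode.comp Computable.snd) ?_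
    have h1 : Computable (fun x : (β × ℕ) × α => decide (f x.2 = x.1.1)) := by
      have hdec : Computable₂ (fun a b : β => decide (a = b)) :=
        (Primrec.eq (α := β)).decide.to_comp
      exact hdec.comp (hf.comp Computable.snd) (Computable.fst.comp Computable.fst)
    refine (Computable.cond h1 (Computable.option_some.comp Computable.snd)
      (Computable.const none)).of_eq ?_
    rintro ⟨⟨b, n⟩, a⟩
    by_cases h : f a = b <;> simp [h]
  have hdom : ∀ b, (Nat.rfindOpt (F b)).Dom := by
    intro b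
    rw [Nat.rfindOpt_dom]
    obtain ⟨a, ha⟩ := hs b
    refine ⟨Encodable.encode a, a, ?_⟩
    simp [F, ha]
  refine ⟨fun b => (Nat.rfindOpt (F b)).get (hdom b), ?_, ?_⟩
  · exact (Partrec.rfindOpt hF).of_eq_tot (fun b => Part.get_mem _)
  · intro b
    obtain ⟨n, hn⟩ := Nat.rfindOpt_spec (Part.get_mem (hdom b))
    simp only [F] at hn
    rw [Option.mem_def, Option.bind_eq_some_iff] at hn
    obtain ⟨a, _, h2⟩ := hn
    split_ifs at h2 with h3
    have h4 : a = (Nat.rfindOpt (F b)).get (hdom b) := Option.some.inj h2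
    show f ((Nat.rfindOpt (F b)).get (hdom b)) = b
    rw [← h4]
    exact h3

theorem exists_repr : ∃ r : ℚ → ℕ × ℕ × ℕ, Computable r ∧ ∀ q, mkQ (r q) = q :=
  exists_section mkQ computable_mkQ mkQ_surj


/-- a fixed computable representation of rationals -/
noncomputable def rep : ℚ → ℕ × ℕ × ℕ := exists_repr.choose
theorem computable_rep : Computable rep := exists_repr.choose_spec.1
theorem mkQ_rep (q : ℚ) : mkQ (rep q) = q := exists_repr.choose_spec.2 q

theorem rep_eq (q : ℚ) : q = (((rep q).1 : ℚ) - (rep q).2.1) / (((rep q).2.2 : ℚ) + 1) :=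
  (mkQ_rep q).symm

section
variable {α : Type*} [Primcodable α]

theorem computable_add : Computable₂ ((· + ·) : ℚ → ℚ → ℚ) := by
  have h : Primrec (fun x : (ℕ × ℕ × ℕ) × (ℕ × ℕ × ℕ) =>
      mkQ (x.1.1 * (x.2.2.2 + 1) + x.2.1 * (x.1.2.2 + 1),
        x.1.2.1 * (x.2.2.2 + 1) + x.2.2.1 * (x.1.2.2 + 1),
        x.1.2.2 * x.2.2.2 + x.1.2.2 + x.2.2.2)) := by
    have p1 : Primrec (fun x : (ℕ × ℕ × ℕ) × (ℕ × ℕ × ℕ) => x.1.1) :=
      Primrec.fst.comp Primrec.fst
    have m1 : Primrec (fun x : (ℕ × ℕ × ℕ) × (ℕ × ℕ × ℕ) => x.1.2.1) :=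
      Primrec.fst.comp (Primrec.snd.comp Primrec.fst)
    have d1 : Primrec (fun x : (ℕ × ℕ × ℕ) × (ℕ × ℕ × ℕ) => x.1.2.2) :=
      Primrec.snd.comp (Primrec.snd.comp Primrec.fst)
    have p2 : Primrec (fun x : (ℕ × ℕ × ℕ) × (ℕ × ℕ × ℕ) => x.2.1) :=
      Primrec.fst.comp Primrec.snd
    have m2 : Primrec (fun x : (ℕ × ℕ × ℕ) × (ℕ × ℕ × ℕ) => x.2.2.1) :=
      Primrec.fst.comp (Primrec.snd.comp Primrec.snd)
    have d2 : Primrec (fun x : (ℕ × ℕ × ℕ) × (ℕ × ℕ × ℕ) => x.2.2.2) :=
      Primrec.snd.comp (Primrec.snd.comp Primrec.snd)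
    have s1 := Primrec.succ.comp d1
    have s2 := Primrec.succ.comp d2
    exact primrec_mkQ.comp (Primrec.pair
      (Primrec.nat_add.comp (Primrec.nat_mul.comp p1 s2) (Primrec.nat_mul.comp p2 s1))
      (Primrec.pair (Primrec.nat_add.comp (Primrec.nat_mul.comp m1 s2) (Primrec.nat_mul.comp m2 s1))
        (Primrec.nat_add.comp (Primrec.nat_add.comp (Primrec.nat_mul.comp d1 d2) d1) d2)))
  refine (h.to_comp.comp (Computable.pair (computable_rep.comp Computable.fst)
    (computable_rep.comp Computable.snd))).of_eq ?_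
  rintro ⟨a, b⟩
  have ha := rep_eq a
  have hb := rep_eq b
  set ra := rep a
  set rb := rep b
  obtain ⟨p1, m1, d1⟩ := ra
  obtain ⟨p2, m2, d2⟩ := rb
  simp only at ha hb ⊢
  rw [ha, hb, mkQ]
  push_cast
  field_simp
  ring

theorem computable_mul : Computable₂ ((· * ·) : ℚ → ℚ → ℚ) := by
  have h : Primrec (fun x : (ℕ × ℕ × ℕ) × (ℕ × ℕ × ℕ) =>
      mkQ (x.1.1 * x.2.1 + x.1.2.1 * x.2.2.1,
        x.1.1 * x.2.2.1 + x.1.2.1 * x.2.1,
        x.1.2.2 * x.2.2.2 + x.1.2.2 + x.2.2.2)) := by
    have p1 : Primrec (fun x : (ℕ × ℕ × ℕ) × (ℕ × ℕ × ℕ) => x.1.1) :=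
      Primrec.fst.comp Primrec.fst
    have m1 : Primrec (fun x : (ℕ × ℕ × ℕ) × (ℕ × ℕ × ℕ) => x.1.2.1) :=
      Primrec.fst.comp (Primrec.snd.comp Primrec.fst)
    have d1 : Primrec (fun x : (ℕ × ℕ × ℕ) × (ℕ × ℕ × ℕ) => x.1.2.2) :=
      Primrec.snd.comp (Primrec.snd.comp Primrec.fst)
    have p2 : Primrec (fun x : (ℕ × ℕ × ℕ) × (ℕ × ℕ × ℕ) => x.2.1) :=
      Primrec.fst.comp Primrec.snd
    have m2 : Primrec (fun x : (ℕ × ℕ × ℕ) × (ℕ × ℕ × ℕ) => x.2.2.1) :=
      Primrec.fst.comp (Primrec.snd.comp Primrec.snd)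
    have d2 : Primrec (fun x : (ℕ × ℕ × ℕ) × (ℕ × ℕ × ℕ) => x.2.2.2) :=
      Primrec.snd.comp (Primrec.snd.comp Primrec.snd)
    exact primrec_mkQ.comp (Primrec.pair
      (Primrec.nat_add.comp (Primrec.nat_mul.comp p1 p2) (Primrec.nat_mul.comp m1 m2))
      (Primrec.pair (Primrec.nat_add.comp (Primrec.nat_mul.comp p1 m2) (Primrec.nat_mul.comp m1 p2))
        (Primrec.nat_add.comp (Primrec.nat_add.comp (Primrec.nat_mul.comp d1 d2) d1) d2)))
  refine (h.to_comp.comp (Computable.pair (computable_rep.comp Computable.fst)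
    (computable_rep.comp Computable.snd))).of_eq ?_
  rintro ⟨a, b⟩
  have ha := rep_eq a
  have hb := rep_eq b
  set ra := rep a
  set rb := rep b
  obtain ⟨p1, m1, d1⟩ := ra
  obtain ⟨p2, m2, d2⟩ := rb
  simp only at ha hb ⊢
  rw [ha, hb, mkQ]
  push_cast
  field_simp
  ring

theorem computable_natCast : Computable (fun n : ℕ => (n : ℚ)) := by
  refine (computable_mkQ.comp (Computable.pair Computable.id (Computable.const (0, 0)))).of_eq ?_
  intro n
  simp [mkQ]

theorem computable_neg : Computable (fun q : ℚ => -q) := by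
  refine (computable_mul.comp (Computable.const (-1)) Computable.id).of_eq ?_
  intro n
  simp

theorem computable_sub : Computable₂ (fun a b : ℚ => a - b) := by
  refine (computable_add.comp Computable.fst (computable_neg.comp Computable.snd)).of_eq ?_
  rintro ⟨a, b⟩
  simp only
  ring

theorem computable_inv : Computable (fun q : ℚ => q⁻¹) := by
  have h : Primrec (fun x : ℕ × ℕ × ℕ =>
      if x.1 = x.2.1 then mkQ (0, 0, 0) else
        if x.2.1 ≤ x.1 then mkQ (x.2.2 + 1, 0, x.1 - x.2.1 - 1)
        else mkQ (0, x.2.2 + 1, x.2.1 - x.1 - 1)) := by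
    have p : Primrec (fun x : ℕ × ℕ × ℕ => x.1) := Primrec.fst
    have m : Primrec (fun x : ℕ × ℕ × ℕ => x.2.1) := Primrec.fst.comp Primrec.snd
    have d : Primrec (fun x : ℕ × ℕ × ℕ => x.2.2 + 1) :=
      Primrec.succ.comp (Primrec.snd.comp Primrec.snd)
    refine Primrec.ite (Primrec.eq.comp p m) (Primrec.const _)
      (Primrec.ite (Primrec.nat_le.comp m p) ?_ ?_)
    · exact primrec_mkQ.comp (Primrec.pair d (Primrec.pair (Primrec.const 0)
        (Primrec.nat_sub.comp (Primrec.nat_sub.comp p m) (Primrec.const 1))))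
    · exact primrec_mkQ.comp (Primrec.pair (Primrec.const 0) (Primrec.pair d
        (Primrec.nat_sub.comp (Primrec.nat_sub.comp m p) (Primrec.const 1))))
  refine (h.to_comp.comp computable_rep).of_eq ?_
  intro a
  have ha := rep_eq a
  set ra := rep a
  obtain ⟨p, m, d⟩ := ra
  simp only at ha ⊢
  rw [ha]
  split_ifs with h1 h2
  · rw [h1]; simp [mkQ]
  · have hp : m < p := by omega
    have e : ((p - m - 1 : ℕ) : ℚ) + 1 = (p : ℚ) - m := by
      have : (p - m - 1) + 1 + m = p := by omega
      have : (((p - m - 1) + 1 + m : ℕ) : ℚ) = p := by rw [this]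
      push_cast at this ⊢
      linarith
    simp only [mkQ, e]
    rw [inv_div]
    push_cast
    ring
  · have hp : p < m := by omega
    have e : ((m - p - 1 : ℕ) : ℚ) + 1 = (m : ℚ) - p := by
      have : (m - p - 1) + 1 + p = m := by omega
      have : (((m - p - 1) + 1 + p : ℕ) : ℚ) = m := by rw [this]
      push_cast at this ⊢
      linarith
    simp only [mkQ, e]
    rw [inv_div]
    have e1 : (m : ℚ) - p ≠ 0 := by
      have : (p : ℚ) < m := by exact_mod_cast hp
      linarith
    have e2 : (p : ℚ) - m ≠ 0 := by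
      intro h; apply e1; linarith
    push_cast
    field_simp
    ring

theorem computable_div : Computable₂ (fun a b : ℚ => a / b) := by
  refine (computable_mul.comp Computable.fst (computable_inv.comp Computable.snd)).of_eq ?_
  rintro ⟨a, b⟩
  simp only
  rw [div_eq_mul_inv]

theorem computable_nonneg : Computable (fun a : ℚ => decide (0 ≤ a)) := by
  have h : Primrec (fun x : ℕ × ℕ × ℕ => decide (x.2.1 ≤ x.1)) :=
    (Primrec.nat_le.comp (Primrec.fst.comp Primrec.snd) Primrec.fst).decide
  refine (h.to_comp.comp computable_rep).of_eq ?_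
  intro a
  have ha := rep_eq a
  set ra := rep a
  obtain ⟨p, m, d⟩ := ra
  simp only at ha ⊢
  rw [ha]
  congr 1
  rw [eq_iff_iff]
  have hd : (0 : ℚ) < (d : ℚ) + 1 := by positivity
  rw [le_div_iff₀ hd, zero_mul, sub_nonneg, Nat.cast_le]

theorem computable_le : Computable₂ (fun a b : ℚ => decide (a ≤ b)) := by
  refine (computable_nonneg.comp (computable_sub.comp Computable.snd Computable.fst)).of_eq ?_
  rintro ⟨a, b⟩
  simp

theorem exists_natBound : ∃ B : ℚ → ℕ, Computable B ∧ ∀ q : ℚ, |q| ≤ B q := by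
  refine ⟨fun q => (rep q).1 + (rep q).2.1, ?_, ?_⟩
  · exact Primrec.nat_add.to_comp.comp (Computable.fst.comp computable_rep)
      (Computable.fst.comp (Computable.snd.comp computable_rep))
  · intro a
    have ha := rep_eq a
    show |a| ≤ (((rep a).1 + (rep a).2.1 : ℕ) : ℚ)
    generalize rep a = ra at ha
    obtain ⟨p, m, d⟩ := ra
    simp only at ha ⊢
    have hd : (0 : ℚ) < (d : ℚ) + 1 := by positivity
    rw [ha, abs_div, abs_of_pos hd, div_le_iff₀ hd]
    have h1 : |(p : ℚ) - m| ≤ p + m := by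
      rw [abs_le]
      have := Nat.cast_nonneg (α := ℚ) p
      have := Nat.cast_nonneg (α := ℚ) m
      constructor <;> linarith
    push_cast
    have h2 : (0 : ℚ) ≤ (p : ℚ) + m := by positivity
    have h3 : (0 : ℚ) ≤ d := by positivity
    nlinarith

/-- sums of computable functions -/
theorem computable_sum {f : α → ℕ → ℚ} {g : α → ℕ} (hf : Computable₂ f) (hg : Computable g) :
    Computable (fun a => ∑ i ∈ Finset.range (g a), f a i) := by
  have h := Computable.nat_rec (f := g) (g := fun _ : α => (0 : ℚ))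
    (h := fun a p => p.2 + f a p.1) hg (Computable.const 0)
    (computable_add.comp (Computable.snd.comp Computable.snd)
      (hf.comp Computable.fst (Computable.fst.comp Computable.snd)))
  refine h.of_eq ?_
  intro a
  induction g a with
  | zero => simp
  | succ n ih => rw [Finset.sum_range_succ, ← ih]

theorem computable_natSum {f : α → ℕ → ℕ} {g : α → ℕ} (hf : Computable₂ f) (hg : Computable g) :
    Computable (fun a => ∑ i ∈ Finset.range (g a), f a i) := by
  have h := Computable.nat_rec (f := g) (g := fun _ : α => (0 : ℕ))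
    (h := fun a p => p.2 + f a p.1) hg (Computable.const 0)
    (Primrec.nat_add.to_comp.comp (Computable.snd.comp Computable.snd)
      (hf.comp Computable.fst (Computable.fst.comp Computable.snd)))
  refine h.of_eq ?_
  intro a
  induction g a with
  | zero => simp
  | succ n ih => rw [Finset.sum_range_succ, ← ih]

theorem computable_natPow : Computable₂ (fun a b : ℕ => a ^ b) := by
  have h := Computable.nat_rec (f := fun p : ℕ × ℕ => p.2) (g := fun _ => (1 : ℕ))
    (h := fun a p => p.2 * a.1) Computable.snd (Computable.const 1)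
    (Primrec.nat_mul.to_comp.comp (Computable.snd.comp Computable.snd)
      (Computable.fst.comp Computable.fst))
  refine h.of_eq ?_
  rintro ⟨a, b⟩
  simp only
  induction b with
  | zero => simp
  | succ n ih => rw [pow_succ, ← ih]

theorem computable_pow : Computable₂ (fun (a : ℚ) (b : ℕ) => a ^ b) := by
  have h := Computable.nat_rec (f := fun p : ℚ × ℕ => p.2) (g := fun _ => (1 : ℚ))
    (h := fun a p => p.2 * a.1) Computable.snd (Computable.const 1)
    (computable_mul.comp (Computable.snd.comp Computable.snd)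
      (Computable.fst.comp Computable.fst))
  refine h.of_eq ?_
  rintro ⟨a, b⟩
  simp only
  induction b with
  | zero => simp
  | succ n ih => rw [pow_succ, ← ih]

theorem computable_natMax : Computable₂ (fun a b : ℕ => max a b) := Primrec.nat_max.to_comp
theorem computable_natAdd : Computable₂ (fun a b : ℕ => a + b) := Primrec.nat_add.to_comp
theorem computable_natMul : Computable₂ (fun a b : ℕ => a * b) := Primrec.nat_mul.to_comp
theorem computable_natSub : Computable₂ (fun a b : ℕ => a - b) := Primrec.nat_sub.to_comp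
theorem computable_natDiv : Computable₂ (fun a b : ℕ => a / b) := Primrec.nat_div.to_comp
theorem computable_natMod : Computable₂ (fun a b : ℕ => a % b) := Primrec.nat_mod.to_comp

theorem computable_eOld : Computable eOld := by
  refine (primrec_codeQ.to_comp.comp computable_rep).of_eq ?_
  intro q
  rw [← eOld_mkQ, mkQ_rep]

theorem computable_den : Computable (fun q : ℚ => q.den) := by
  refine ((Computable.snd.comp Computable.unpair).comp computable_eOld).of_eq ?_
  intro q
  rw [eOld_eq, Nat.unpair_pair]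

theorem computable_num : Computable (fun q : ℚ => q.num) := by
  rw [← Computable.encode_iff]
  refine ((Computable.fst.comp Computable.unpair).comp computable_eOld).of_eq ?_
  intro q
  rw [eOld_eq, Nat.unpair_pair]

theorem computable_intCast : Computable (fun z : ℤ => (z : ℚ)) := by
  have h : Primrec (fun n : ℕ => if n % 2 = 0 then mkQ (n / 2, 0, 0) else mkQ (0, (n + 1) / 2, 0)) := by
    refine Primrec.ite (Primrec.eq.comp (Primrec.nat_mod.comp Primrec.id (Primrec.const 2))
      (Primrec.const 0)) ?_ ?_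
    · exact primrec_mkQ.comp (Primrec.pair (Primrec.nat_div.comp Primrec.id (Primrec.const 2))
        (Primrec.const (0, 0)))
    · exact primrec_mkQ.comp (Primrec.pair (Primrec.const 0) (Primrec.pair
        (Primrec.nat_div.comp Primrec.succ (Primrec.const 2)) (Primrec.const 0)))
  refine (h.to_comp.comp Computable.encode).of_eq ?_
  intro z
  cases z with
  | ofNat k =>
    rw [encode_int_ofNat]
    have h1 : 2 * k % 2 = 0 := by omega
    have h2 : 2 * k / 2 = k := by omega
    rw [if_pos h1, h2]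
    simp [mkQ]
  | negSucc k =>
    rw [encode_int_negSucc]
    have h1 : ¬ ((2 * k + 1) % 2 = 0) := by omega
    have h2 : (2 * k + 1 + 1) / 2 = k + 1 := by omega
    rw [if_neg h1, h2]
    simp [mkQ]

theorem computable_natFloor : Computable (fun q : ℚ => ⌊q⌋₊) := by
  have h : Primrec (fun x : ℕ × ℕ × ℕ => (x.1 - x.2.1) / (x.2.2 + 1)) :=
    Primrec.nat_div.comp (Primrec.nat_sub.comp Primrec.fst (Primrec.fst.comp Primrec.snd))
      (Primrec.succ.comp (Primrec.snd.comp Primrec.snd))
  refine (h.to_comp.comp computable_rep).of_eq ?_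
  intro a
  have ha := rep_eq a
  generalize rep a = ra at ha
  obtain ⟨p, m, d⟩ := ra
  simp only at ha ⊢
  have hd : (0 : ℚ) < (d : ℚ) + 1 := by positivity
  by_cases hpm : m ≤ p
  · have h0 : 0 ≤ a := by
      rw [ha]
      have : (m : ℚ) ≤ p := by exact_mod_cast hpm
      exact div_nonneg (by linarith) hd.le
    symm
    rw [Nat.floor_eq_iff h0, ha]
    have e : ((p - m : ℕ) : ℚ) = (p : ℚ) - m := by push_cast [Nat.cast_sub hpm]; ring
    rw [le_div_iff₀ hd, div_lt_iff₀ hd, ← e]
    have h1 := Nat.div_mul_le_self (p - m) (d + 1)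
    have h2 := Nat.lt_div_mul_add (a := p - m) (b := d + 1) (by omega)
    constructor
    · exact_mod_cast h1
    · have : p - m < ((p - m) / (d + 1) + 1) * (d + 1) := by
        rw [add_mul, one_mul]; exact h2
      exact_mod_cast this
  · have h0 : a ≤ 0 := by
      rw [ha]
      have : (p : ℚ) < m := by exact_mod_cast (not_le.mp hpm)
      exact div_nonpos_of_nonpos_of_nonneg (by linarith) hd.le
    rw [Nat.floor_of_nonpos h0]
    have : p - m = 0 := by omega
    rw [this, Nat.zero_div]

theorem computable_natCeil : Computable (fun q : ℚ => ⌈q⌉₊) := by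
  have h : Primrec (fun x : ℕ × ℕ × ℕ => (x.1 - x.2.1 + x.2.2) / (x.2.2 + 1)) :=
    Primrec.nat_div.comp (Primrec.nat_add.comp
      (Primrec.nat_sub.comp Primrec.fst (Primrec.fst.comp Primrec.snd))
      (Primrec.snd.comp Primrec.snd))
      (Primrec.succ.comp (Primrec.snd.comp Primrec.snd))
  refine (h.to_comp.comp computable_rep).of_eq ?_
  intro a
  have ha := rep_eq a
  generalize rep a = ra at ha
  obtain ⟨p, m, d⟩ := ra
  simp only at ha ⊢
  have hd : (0 : ℚ) < (d : ℚ) + 1 := by positivity
  symm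
  by_cases hpm : p ≤ m
  · have h0 : a ≤ 0 := by
      rw [ha]
      have : (p : ℚ) ≤ m := by exact_mod_cast hpm
      exact div_nonpos_of_nonpos_of_nonneg (by linarith) hd.le
    rw [Nat.ceil_eq_zero.mpr h0]
    have : p - m = 0 := by omega
    rw [this, zero_add, Nat.div_eq_of_lt (by omega)]
  · have hpm' : m < p := not_le.mp hpm
    have e : ((p - m : ℕ) : ℚ) = (p : ℚ) - m := by push_cast [Nat.cast_sub hpm'.le]; ring
    have hne : (p - m + d) / (d + 1) ≠ 0 := by
      have := Nat.div_pos (show d + 1 ≤ p - m + d by omega) (by omega : 0 < d + 1)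
      omega
    rw [Nat.ceil_eq_iff hne, ha, ← e, lt_div_iff₀ hd, div_le_iff₀ hd]
    have h1 := Nat.div_mul_le_self (p - m + d) (d + 1)
    have h2 := Nat.lt_div_mul_add (a := p - m + d) (b := d + 1) (by omega)
    have hpos := Nat.div_pos (show d + 1 ≤ p - m + d by omega) (by omega : 0 < d + 1)
    set c := (p - m + d) / (d + 1) with hc
    obtain ⟨c', hc'⟩ : ∃ c', c = c' + 1 := ⟨c - 1, by omega⟩
    constructor
    · have : (c - 1) * (d + 1) < p - m := by
        rw [hc'] at h1 ⊢
        simp only [Nat.add_sub_cancel]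
        nlinarith
      exact_mod_cast this
    · have : p - m ≤ c * (d + 1) := by omega
      exact_mod_cast this

end

end Crest.Agent.CompRat
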