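import Mathlib
import Crest.Prelude.Def_QuadraticTransport
import Crest.Agent.Lib.OTStabDefs

/-!
Row 82 (S0109): the definition of the max-affine potential `phi`, shared by the chunks D, U, E, G.
-/

set_option autoImplicit false
open MeasureTheory
open scoped ENNReal NNReal
open Crest.AnalysisR.OT

namespace Crest.Agent.Lib.OTStab

/-- the max-affine potential of atoms `y` and weights `a` -/
noncomputable def phi {d N : ℕ} (y : Fin N → EuclideanSpace ℝ (Fin d)) (a : Fin N → ℝ)
    (x : EuclideanSpace ℝ (Fin d)) : ℝ := ⨆ i, (inner ℝ x (y i) - a i)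

end Crest.Agent.Lib.OTStab
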