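import Crest.Agent.Lib.OTCellMap

/-!
Row 82, chunk U: uniqueness (up to an additive constant) of the dual weights of a Laguerre
partition with prescribed positive cell masses.
-/

set_option autoImplicit false
open MeasureTheory Filter Topology
open scoped ENNReal NNReal
open Crest.AnalysisR.OT

namespace Crest.Agent.Lib.OTStab

theorem weights_unique (d : ℕ) (K : Set (EuclideanSpace ℝ (Fin d))) (hKc : IsCompact K) (hKv : Convex ℝ K)
    (hKi : (interior K).Nonempty) (N : ℕ)
    (y : Fin N → EuclideanSpace ℝ (Fin d)) (hy : Function.Injective y) (m a b : Fin N → ℝ)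
    (hm : ∀ i, 0 < m i) (hsum : ∑ i, m i = 1)
    (ha : ∀ i, uniformProbOn K (Cell y a i) = ENNReal.ofReal (m i))
    (hb : ∀ i, uniformProbOn K (Cell y b i) = ENNReal.ofReal (m i)) : ∃ c : ℝ, ∀ i, b i = a i + c := by
  classical
  obtain ⟨hprob, hac, hKc0⟩ := unif_facts K hKc hKi
  have hN : 0 < N := by
    rcases Nat.eq_zero_or_pos N with h | h
    · subst h; simp at hsum
    · exact h
  have hne : Nonempty (Fin N) := ⟨⟨0, hN⟩⟩
  obtain ⟨i0, hi0⟩ := Finite.exists_min (fun i => b i - a i)
  by_contra hcon
  push Not at hcon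
  -- the two classes
  obtain ⟨j0, hj0⟩ := hcon (b i0 - a i0)
  let S : Finset (Fin N) := Finset.univ.filter (fun i => b i - a i = b i0 - a i0)
  let T : Finset (Fin N) := Finset.univ.filter (fun i => b i - a i ≠ b i0 - a i0)
  have hi0S : i0 ∈ S := by simp [S]
  have hj0T : j0 ∈ T := by
    simp only [T, Finset.mem_filter, Finset.mem_univ, true_and, ne_eq]
    intro h; apply hj0; linarith
  have hS : S.Nonempty := ⟨i0, hi0S⟩
  have hT : T.Nonempty := ⟨j0, hj0T⟩
  let P : EuclideanSpace ℝ (Fin d) → ℝ := fun x => S.sup' hS (fun i => inner ℝ x (y i) - a i)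
  let Q : EuclideanSpace ℝ (Fin d) → ℝ := fun x => T.sup' hT (fun i => inner ℝ x (y i) - a i)
  have hPc : Continuous P := Continuous.finset_sup'_apply hS (fun i _ => by fun_prop)
  have hQc : Continuous Q := Continuous.finset_sup'_apply hT (fun i _ => by fun_prop)
  obtain ⟨k0, hk0T, hk0⟩ := T.exists_min_image (fun i => b i - a i) hT
  have hgap : 0 < (b k0 - a k0) - (b i0 - a i0) := by
    have h1 : b k0 - a k0 ≠ b i0 - a i0 := by simpa [T] using hk0T
    have h2 := hi0 k0
    have h3 : b i0 - a i0 < b k0 - a k0 := lt_of_le_of_ne h2 (Ne.symm h1)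
    linarith
  set gap : ℝ := (b k0 - a k0) - (b i0 - a i0) with hgapdef
  -- positivity of cells inside the interior
  have hpos : ∀ i, (interior K ∩ Cell y a i).Nonempty := by
    intro i
    have h1 : uniformProbOn K (Cell y a i) ≠ 0 := by
      rw [ha i]; exact (ENNReal.ofReal_pos.mpr (hm i)).ne'
    have h2 : (K ∩ Cell y a i).Nonempty := by
      by_contra hemp
      rw [Set.not_nonempty_iff_eq_empty] at hemp
      apply h1
      refine measure_mono_null ?_ hKc0
      intro x hx hxK
      have : x ∈ K ∩ Cell y a i := ⟨hxK, hx⟩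
      rw [hemp] at this
      exact this
    obtain ⟨x, hxK, hxC⟩ := h2
    have h3 : x ∈ closure (interior K) := by
      rw [hKv.closure_interior_eq_closure_of_nonempty_interior hKi]
      exact subset_closure hxK
    rw [mem_closure_iff] at h3
    obtain ⟨z, hz1, hz2⟩ := h3 _ (isOpen_Cell y a i) hxC
    exact ⟨z, hz2, hz1⟩
  obtain ⟨x1, hx1K, hx1⟩ := hpos i0
  obtain ⟨x2, hx2K, hx2⟩ := hpos j0
  have hf1 : 0 < P x1 - Q x1 := by
    have h1 : inner ℝ x1 (y i0) - a i0 ≤ P x1 :=
      Finset.le_sup' (fun i => inner ℝ x1 (y i) - a i) hi0S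
    have h2 : Q x1 < inner ℝ x1 (y i0) - a i0 := by
      apply (Finset.sup'_lt_iff hT).mpr
      intro j hj
      apply hx1 j
      rintro rfl
      simp [T] at hj
    linarith
  have hf2 : P x2 - Q x2 < 0 := by
    have h1 : inner ℝ x2 (y j0) - a j0 ≤ Q x2 :=
      Finset.le_sup' (fun i => inner ℝ x2 (y i) - a i) hj0T
    have h2 : P x2 < inner ℝ x2 (y j0) - a j0 := by
      apply (Finset.sup'_lt_iff hS).mpr
      intro j hj
      apply hx2 j
      rintro rfl
      simp only [S, Finset.mem_filter, Finset.mem_univ, true_and] at hj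
      simp [T, hj] at hj0T
    linarith
  have hivt := hKv.interior.isPreconnected.intermediate_value hx2K hx1K
    (f := fun x => P x - Q x) (hPc.sub hQc).continuousOn
  have hv : max (P x2 - Q x2) (-gap / 2) ∈ Set.Icc (P x2 - Q x2) (P x1 - Q x1) :=
    ⟨le_max_left _ _, max_le (by linarith) (by linarith)⟩
  obtain ⟨x3, hx3K, hx3⟩ := hivt hv
  simp only at hx3
  have hx3a : P x3 - Q x3 < 0 := by rw [hx3]; exact max_lt hf2 (by linarith)
  have hx3b : -gap < P x3 - Q x3 := by
    rw [hx3]; exact lt_of_lt_of_le (by linarith) (le_max_right _ _)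
  let O : Set (EuclideanSpace ℝ (Fin d)) := interior K ∩ {x | -gap < P x - Q x ∧ P x - Q x < 0}
  have hO : IsOpen O := isOpen_interior.inter
    ((isOpen_lt continuous_const (hPc.sub hQc)).inter (isOpen_lt (hPc.sub hQc) continuous_const))
  have hOne : O.Nonempty := ⟨x3, hx3K, hx3b, hx3a⟩
  have hOpos : uniformProbOn K O ≠ 0 := by
    have h1 : volume O ≠ 0 := (hO.measure_pos volume hOne).ne'
    unfold uniformProbOn
    rw [Measure.smul_apply, Measure.restrict_apply hO.measurableSet,
      Set.inter_eq_self_of_subset_left (fun x hx => interior_subset hx.1), smul_eq_mul]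
    exact mul_ne_zero (ENNReal.inv_ne_zero.mpr hKc.measure_lt_top.ne) h1
  -- null difference of cells for indices in S
  have hnull : ∀ i ∈ S, uniformProbOn K (Cell y b i \ Cell y a i) = 0 := by
    intro i hi
    have hci : b i - a i = b i0 - a i0 := by simpa [S] using hi
    have hsub : Cell y a i ⊆ Cell y b i := by
      intro x hx j hji
      have h1 := hx j hji
      have h2 := hi0 j
      linarith
    rw [measure_sdiff hsub (isOpen_Cell y a i).measurableSet.nullMeasurableSet (measure_ne_top _ _), ha i, hb i,
      tsub_self]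
  apply hOpos
  have hcov := cell_cover (uniformProbOn K) y b m hm hsum hb
  have hsub : O ⊆ {x | ¬ ∃ i, x ∈ Cell y b i} ∪ ⋃ i ∈ S, (Cell y b i \ Cell y a i) := by
    intro x hx
    by_cases hex : ∃ i, x ∈ Cell y b i
    · right
      obtain ⟨i, hi⟩ := hex
      have hxO := hx.2
      -- index of the maximum over S
      obtain ⟨s, hsS, hs⟩ := S.exists_mem_eq_sup' hS (fun i => inner ℝ x (y i) - a i)
      have hPx : P x = inner ℝ x (y s) - a s := hs
      have hcs : b s - a s = b i0 - a i0 := by simpa [S] using hsS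
      have hiS : i ∈ S := by
        by_contra hiS
        have hiT : i ∈ T := by
          simp only [S, Finset.mem_filter, Finset.mem_univ, true_and] at hiS
          simp only [T, Finset.mem_filter, Finset.mem_univ, true_and, ne_eq]
          exact hiS
        have h1 : inner ℝ x (y i) - a i ≤ Q x := Finset.le_sup' (fun i => inner ℝ x (y i) - a i) hiT
        have h2 := hk0 i hiT
        have hsi : s ≠ i := by rintro rfl; exact hiS hsS
        have h3 := hi s hsi
        have h4 := hxO.1
        rw [hPx] at h4
        linarith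
      refine Set.mem_biUnion hiS ⟨hi, ?_⟩
      intro hxa
      have h1 : inner ℝ x (y i) - a i ≤ P x := Finset.le_sup' (fun i => inner ℝ x (y i) - a i) hiS
      have h2 : Q x < inner ℝ x (y i) - a i := by
        apply (Finset.sup'_lt_iff hT).mpr
        intro j hj
        apply hxa j
        rintro rfl
        simp only [S, Finset.mem_filter, Finset.mem_univ, true_and] at hiS
        simp [T, hiS] at hj
      linarith [hxO.2]
    · left; exact hex
  refine measure_mono_null hsub (measure_union_null hcov ?_)
  exact (measure_biUnion_null_iff (Finset.countable_toSet S)).mpr (fun i hi => hnull i hi)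

end Crest.Agent.Lib.OTStab
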